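import Vale.Agent.P181.RV.Defs
import Vale.Agent.P181.MD.H112.Peel

set_option autoImplicit false

/-!
# P181, RV: the block [TOPV], the two top rows (Weyl's formula)
-/

namespace Vale.Agent.P181.RV.H153

open Finset Vale.Agent.P181 Vale.Agent.P181.H280 Vale.Agent.P181.H463

/-- Removal of the first row and of one letter. -/
lemma one {n M m' y : ℕ} (hn : n ≤ M) (hm1 : 1 ≤ m') (hm : m' ≤ M + 1)
    (ζ : Fin (n + 1) → ℕ) (hζ : Antitone ζ) (h : ∀ j, m' ≤ j → y + T4.ex ζ j ≤ ζ 0) :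
    y ^ (M + 1 - m') * gt n M (fun i => ζ i.succ) ≤ M.factorial * gt (n + 1) (M + 1) ζ := by
  have h1 := MD.H112.peel n M ζ hn hζ
  have h2 : y ^ (M + 1 - m') ≤ ∏ j ∈ range M, (ζ 0 - T4.ex ζ (j + 1) + (j + 1)) := by
    rw [← Finset.prod_range_mul_prod_Ico _ (show m' - 1 ≤ M by omega)]
    have h3 : 1 ≤ ∏ j ∈ range (m' - 1), (ζ 0 - T4.ex ζ (j + 1) + (j + 1)) :=
      Finset.one_le_prod' fun j _ => by omega
    have h4 : y ^ (M + 1 - m') ≤ ∏ j ∈ Ico (m' - 1) M, (ζ 0 - T4.ex ζ (j + 1) + (j + 1)) := by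
      have h5 : ∏ _j ∈ Ico (m' - 1) M, y ≤
          ∏ j ∈ Ico (m' - 1) M, (ζ 0 - T4.ex ζ (j + 1) + (j + 1)) := by
        refine Finset.prod_le_prod' fun j hj => ?_
        have h6 := (Finset.mem_Ico.1 hj).1
        have h7 := h (j + 1) (by omega)
        omega
      rw [Finset.prod_const, Nat.card_Ico] at h5
      have h8 : M + 1 - m' = M - (m' - 1) := by omega
      rw [h8]
      exact h5
    calc y ^ (M + 1 - m') = 1 * y ^ (M + 1 - m') := (one_mul _).symm
      _ ≤ _ := Nat.mul_le_mul h3 h4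
  calc y ^ (M + 1 - m') * gt n M (fun i => ζ i.succ)
      ≤ (∏ j ∈ range M, (ζ 0 - T4.ex ζ (j + 1) + (j + 1))) * gt n M (fun i => ζ i.succ) :=
        Nat.mul_le_mul_right _ h2
    _ = gt n M (fun i => ζ i.succ) * ∏ j ∈ range M, (ζ 0 - T4.ex ζ (j + 1) + (j + 1)) :=
        Nat.mul_comm _ _
    _ = gt (n + 1) (M + 1) ζ * M.factorial := h1.symm
    _ = M.factorial * gt (n + 1) (M + 1) ζ := Nat.mul_comm _ _

/-- **[TOPV]** -/
theorem topV : TopV := by
  intro k m u y η hη hku hm hmu h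
  obtain ⟨U, rfl⟩ : ∃ U, u = U + 2 := ⟨u - 2, by omega⟩
  have hη' : Antitone (fun i : Fin (k + 1) => η i.succ) := fun i j hij =>
    hη (Fin.succ_le_succ_iff.2 hij)
  have ha : ∀ j, m ≤ j → y + T4.ex η j ≤ η 0 := by
    intro j hj
    unfold T4.ex
    split_ifs with hjk
    · exact (h 0 (by norm_num)).2 ⟨j, hjk⟩ hj
    · exact (h 0 (by norm_num)).1
  have hb : ∀ j, m - 1 ≤ j → y + T4.ex (fun i : Fin (k + 1) => η i.succ) j ≤
      (fun i : Fin (k + 1) => η i.succ) 0 := by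
    intro j hj
    have h1 : ((Fin.succ (0 : Fin (k + 1)) : Fin (k + 2)) : ℕ) < 2 := by
      rw [Fin.val_succ, Fin.val_zero]
      norm_num
    unfold T4.ex
    split_ifs with hjk
    · exact (h _ h1).2 (Fin.succ ⟨j, hjk⟩) (by rw [Fin.val_succ]; show m ≤ j + 1; omega)
    · exact (h _ h1).1
  have h1 := one (n := k + 1) (M := U + 1) (m' := m) (y := y) (by omega) (by omega) (by omega)
    η hη ha
  have h2 := one (n := k) (M := U) (m' := m - 1) (y := y) (by omega) (by omega) (by omega)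
    (fun i : Fin (k + 1) => η i.succ) hη' hb
  have e1 : U + 1 + 1 - m = U + 2 - m := by omega
  have e2 : U + 1 - (m - 1) = U + 2 - m := by omega
  rw [e1] at h1
  rw [e2] at h2
  have e3 : U + 2 - 2 = U := by omega
  rw [e3]
  have hf1 : (U + 1).factorial ≤ (U + 2).factorial := Nat.factorial_le (by omega)
  have hf2 : U.factorial ≤ (U + 2).factorial := Nat.factorial_le (by omega)
  calc y ^ (2 * (U + 2 - m)) * gt k U (fun i => η i.succ.succ)
      = y ^ (U + 2 - m) * (y ^ (U + 2 - m) * gt k U (fun i => η i.succ.succ)) := by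
        rw [two_mul, pow_add, Nat.mul_assoc]
    _ ≤ y ^ (U + 2 - m) * (U.factorial * gt (k + 1) (U + 1) (fun i => η i.succ)) :=
        Nat.mul_le_mul_left _ h2
    _ = U.factorial * (y ^ (U + 2 - m) * gt (k + 1) (U + 1) (fun i => η i.succ)) :=
        Nat.mul_left_comm _ _ _
    _ ≤ U.factorial * ((U + 1).factorial * gt (k + 2) (U + 2) η) := Nat.mul_le_mul_left _ h1
    _ ≤ (U + 2).factorial * ((U + 2).factorial * gt (k + 2) (U + 2) η) :=
        Nat.mul_le_mul hf2 (Nat.mul_le_mul_right _ hf1)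
    _ = (U + 2).factorial ^ 2 * gt (k + 2) (U + 2) η := by
        rw [sq, Nat.mul_assoc]

end Vale.Agent.P181.RV.H153
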